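import Vale.Agent.P113.Global
import Vale.Agent.P113.Comp

/-!
P113, Q1: halting detection by particle trajectories of forced Navier-Stokes flows from rest.
A single rational point, a single rational box and a single computable compiler work for every
viscosity.
-/

namespace Vale.Agent.Results.P113.HaltingFlow

open Vale.Agent.P113
open scoped ContDiff

theorem result :
    ∃ (a lo hi : Fin 3 → ℚ) (F : Machine → List ℕ → TermLists),
      (∀ i, lo i < hi i) ∧ IsForceCompiler F ∧
      ∀ ν : ℝ, 0 < ν → ∀ M : Machine, M.Valid → ∀ w : List ℕ, M.IsInput w →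
        ContDiff ℝ ∞ (fun z : ℝ × (Fin 3 → ℝ) => forceOf ν (F M w) z.1 z.2) ∧
        ∃ (u : ℝ → (Fin 3 → ℝ) → Fin 3 → ℝ) (p : ℝ → (Fin 3 → ℝ) → ℝ),
          IsGlobalSmoothSolution ν (forceOf ν (F M w)) u p ∧
          IsUniqueClassical ν (forceOf ν (F M w)) u p ∧
          ∃ X : ℝ → Fin 3 → ℝ, IsTrajectory u (fun i => (a i : ℝ)) X ∧
            (∀ Y, IsTrajectory u (fun i => (a i : ℝ)) Y → ∀ t ≥ 0, Y t = X t) ∧
            ((∃ t : ℝ, 0 ≤ t ∧ InBoxImage lo hi (X t)) ↔ M.HaltsOn w) := by
  refine ⟨basePoint, boxLo, boxHi, compile, fun i => ?_, ?_, fun ν hν M hM w hw => ⟨?_, ?_⟩⟩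
  · rcases fin3_cases i with rfl | rfl | rfl
    · show (11/20 : ℚ) < 19/20
      norm_num
    · show (0 : ℚ) < 1
      norm_num
    · show (-1/8 : ℚ) < 1/8
      norm_num
  · exact ⟨compile_primrec.to_comp,
      fun M w i τ hτ => (forceLists_good (velLists_good M w) i τ hτ).1,
      fun M w w' i => forceLists_perPart
        (fun j => (velLists_perPart M w j).trans (velLists_perPart M w' j).symm) i,
      2, fun M w i τ hτ hp ν t x ht =>
        (forceLists_good (velLists_good M w) i τ hτ).eval_eq_zero hp ν t x ht⟩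
  · exact contDiff_pi.2 fun i => evalTerms_contDiff ν
      fun τ hτ => (forceLists_good (velLists_good M w) i τ hτ).1
  · exact main_one hν hM hw

end Vale.Agent.Results.P113.HaltingFlow
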